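import Crest.Agent.X212.G75.Defs
import Crest.Agent.X212.Eq82.Leaf
import Crest.Agent.X212.M.Api
import Crest.Agent.X212.Cyl58.Cps
import Crest.Agent.X212.Num57.Cnn

/-!
# X212 / Brn93, part Defs (helper93): the non vanishing hypothesis of a scene

`bk W m p` is the closed manifold `Z ∅` of a world with the frame of the layer `m` at `p`;
`Ct Λ m p j` : the counts of the line are odd at the level of index zero; `NV S i`.
-/

set_option autoImplicit false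
set_option linter.unusedSectionVars false
noncomputable section
open Set Function
open scoped ContDiff Manifold

namespace Crest.Agent.X212.Brn93
open An M Eq82 G75
open Line51 (Ln)
open Crest.Agent.R208.F (Ext)

variable {X : Mf 4} {A κ lam : Type} [Fintype A] [Fintype κ] [DecidableEq (Option κ)] [Fintype lam]
  [DecidableEq lam] {M : Mark X A κ} {W : World M} {N : ML M lam}

instance cpt0 (W : World M) : CompactSpace (W.Z M.c0).M :=
  Cyl58.caps_compact W.toCaps fun _ h => h.elim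

open Int54 in
theorem ok_ov {Z : Mf 4} {ι : Type} [Fintype ι] {F : Fr Z.I Z.M ι} (hF : F.IsVol) {o : Z.M → Ext Z.E}
    (ho : Ori Z.I o) : Num57.OK F (ov o F.e) ∧ SameOn (Num57.vol F (ov o F.e)) o univ :=
  have hv := ho.unit_vol F.toPre
  ⟨⟨Z.dim, hF, fun a b c d => oc_sm a b c d F.toPre (ho.vol _).sm, fun x => ⟨fr_pr F x,
    (fr_rk F x).trans (by rw [Z.dim]; norm_num), fun a b c d => oc_12 a b c d x,
    fun a b c d => oc_23 a b c d x, fun a b c d => oc_34 a b c d x, fun a b c d => oc_P a b c d x,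
    hv.oc_nm x Z.dim⟩⟩,
    (Num57.sameOn_vol_oc F Z.dim hv).trans (ho.sameOn_volF (pre_sp F.toPre) univ).symm⟩

/-- the closed manifold of a world -/
def bk (W : World M) (m : M.Cl) (p : Prm A) : Bk (W.Z M.c0).I (W.Z M.c0).M (Option κ) :=
  ⟨W.F m M.c0 p, ov (W.o M.c0) (W.F m M.c0 p).e,
    (ok_ov (Lay.F_vol _ _) (W.ori _)).1⟩

/-- the line on it -/
def ln (Λ : Lns W N) (m : M.Cl) (p : Prm A) : Ln (W.Z M.c0).E (W.Z M.c0).M lam := (Λ.Λ m M.c0).ln p

variable (Λ : Lns W N) (m : M.Cl) {p : Prm A}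

theorem ln_on (p : Prm A) : (ln Λ m p).On (W.Z M.c0).I univ := (Λ.Λ m M.c0).ok p

theorem bk_B (h : p ∈ M.O ∅) : (bk W m p).B (ln Λ m p) = Λ.B m M.c0 :=
  ((Λ.Λ m M.c0).B_eq (Mark.mem_Ω _ h)).symm

theorem bk_G (p : Prm A) : (ln Λ m p).geo (bk W m p).F = Λ.G m M.c0 p := rfl

theorem zero_mem_O (σ : Set A) : (0 : Prm A) ∈ M.O σ := fun _ _ => one_pos

/-- the level of the class `K` -/
def lev (p : Prm A) (K : H2 (W.Z M.c0).I (W.Z M.c0).M) : ℝ :=
  -(bk W m p).Q (K - lcl _ (ln Λ m p)) (K - lcl _ (ln Λ m p)) / 4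

/-- the counts with `z ∈ S^{2j+1}` at the level of index zero are odd -/
def Ct (p : Prm A) (j : ℕ) : Prop :=
  ∃ K, Cnt (bk W m p) (ln Λ m p) K ∧ lev Λ m p K < 0 ∧
    6 * lev Λ m p K + (bk W m p).d0 (ln Λ m p) + 2 * j = 0

variable {Λ m} in
theorem Ct.odd {j n : ℕ} {k : ℝ} (h : Ct Λ m p j) (hk : 6 * k + (bk W m p).d0 (ln Λ m p) + 2 * j = 0)
    {τ : Pt (W.Z M.c0).M (Option κ) (lam ⊕ lam) (j + 1 + n) n} (hτ : Dat (bk W m p) (ln Λ m p) τ k) :
    Odd (cntU ((bk W m p).B (ln Λ m p)) (Λ.G m M.c0 p) τ k fun _ => True) := by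
  obtain ⟨K, h1, -, h2⟩ := h
  have e : k = lev Λ m p K := by linarith
  exact (h1 _ n k τ (by omega) (by push_cast; linarith) e.le hτ).2 e

variable {Λ m} in
theorem Ct.neg {j : ℕ} {k : ℝ} (h : Ct Λ m p j)
    (hk : 6 * k + (bk W m p).d0 (ln Λ m p) + 2 * j = 0) : k < 0 := by
  obtain ⟨K, -, h1, h2⟩ := h
  linarith

/-- **the root** -/
def NV {Lm : LM κ lam} (S : Scene Lm) (i : S.L) : Prop :=
  S.fz = ∅ ∧ S.ls = ∅ ∧ ∃ (D : S.Dat) (j : ℕ), Ct (D.Λ i) S.M.c0 0 j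

/-- from one world -/
theorem nv_of (hL : ExlStmt) {Lm : LM κ lam} {S : Scene Lm} {i : S.L} (h : ∀ i, (S.N i).Spare)
    (h1 : S.fz = ∅) (h2 : S.ls = ∅) {W : World S.M} {B : Bas S.X univ} (hW : Std W B)
    (H : ∀ Λ : Lns W.nm (S.N i), ∃ j, Ct Λ S.M.c0 0 j) : NV S i := by
  let b : LBas S.X univ := ⟨0, fun _ _ _ => Dr59.cAt_zero, fun _ => Dr59.Dg.zero,
    fun _ _ _ _ _ => by simpa [Num57.e1] using contMDiffAt_const⟩
  choose Λ hΛ using fun i => hL _ _ _ _ S.M W (S.N i) b (h i)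
  have e : ∀ l, l ∉ S.ls := by simp [h2]
  exact ⟨h1, h2, ⟨W.nm, B, ⟨hW.off, hW.band⟩, fun i => (Λ i).nm, fun _ => b, fun i => ⟨(hΛ i).off, (hΛ i).band⟩,
    fun l => (e _ l.2).elim, fun l => (e _ l.2).elim, fun l k => (e _ k).elim, W.nm_nrm, fun i => (Λ i).nm_nrm⟩, H _⟩

end Crest.Agent.X212.Brn93
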