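import Crest.Agent.X212.Lat93.Main
import Crest.Agent.X212.Line51.Wd
import Crest.Agent.X212.Wd38.Str

/-!
# X212 / Brn93, part Cls (helper93): the class of the line of a root word

* `cls` : two lines that differ by the clutching function `θ ^ N` along a neck;
* `entry` : the lines of a root word differ from the line of the caps by `θ ^ (mL - mR)`.
-/

set_option autoImplicit false
set_option linter.unusedSectionVars false

open Set Filter Topology Function Matrix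
open scoped ContDiff Manifold Kronecker
open Crest.Agent.R208.F Crest.Agent.X212.Dr59 Crest.Agent.X212.Int54 Crest.Agent.X212.Cyl58
  Crest.Agent.X212.Line51 Crest.Agent.X212.Bb31 Crest.Agent.X212.Pj41 Crest.Agent.X212.Lat93
open Crest.Agent.X212.Sep15 (EE IR CM)
open Crest.Agent.X212.Sym24 (pu dT)

noncomputable section

namespace Crest.Agent.X212.Brn93

section gen

variable {E : Type*} [NormedAddCommGroup E] [NormedSpace ℝ E] [FiniteDimensional ℝ E]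
  {H : Type*} [TopologicalSpace H] {I : ModelWithCorners ℝ E H} [I.Boundaryless]
  {M : Type*} [TopologicalSpace M] [ChartedSpace H M] [IsManifold I ∞ M]
  {κ l : Type*} [Fintype κ] [Fintype l] {p : M → Matrix κ κ ℂ} {q : M → Matrix l l ℂ}
  {u : M → Matrix l κ ℂ} {U : Set M} {x : M}

theorem th_ph {g : M → Circle} (hg : CSm I g x) (hu : MSm I u x) (h : ((u x)ᴴ * u x).trace = 1) :
    th I (fun y => (g y : ℂ) • u y) x = th I u x + ang I g x := by
  rw [ang, ← th_kron hu (msm_sc hg) h (by rw [(piso_sc g x).src]; simp),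
    ← th_submatrix (Equiv.prodUnique l Unit).symm (Equiv.prodUnique κ Unit).symm]
  congr 1
  ext y i j
  simp [sc, mul_comm]

theorem d_th (hU : IsOpen U) (h : Uni I p q u U) (hp : (⟨p, 0⟩ : Ln E M κ).On I U) (hx : x ∈ U) :
    dM I (th I u) x = (⟨q, 0⟩ : Ln E M l).F I x - (⟨p, 0⟩ : Ln E M κ).F I x := by
  rw [Uni.F_sub (L := ⟨p, 0⟩) (L' := ⟨q, 0⟩) hU h hp (h.on hU hp) hx]
  simp

end gen

/-- the neck -/
abbrev Nk (Y : Type) : Set (Y × ℝ) := Prod.snd ⁻¹' Ioo (-(1 / 4)) (1 / 4)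

/-- `u` and `v` differ by the clutching function `θ ^ N` -/
def Clu {Y X κ l : Type} (n : Y × ℝ → X) (V : Set X) (u : X → Matrix l κ ℂ) (v : Y × ℝ → Matrix l κ ℂ)
    (θ : Y → Circle) (N : ℤ) : Prop := (∀ x ∉ V, x ∈ n '' Nk Y) ∧ ∀ z ∈ Nk Y, n z ∈ V →
  z.2 < -1 / 8 ∧ u (n z) = ((θ z.1 ^ N : Circle) : ℂ) • v z ∨ 1 / 8 < z.2 ∧ u (n z) = v z

section cls

variable {Y : CM 3} {X : CM 4} {n : Y × ℝ → X} {κ l : Type} [Fintype κ] [Fintype l]
  {p : X → Matrix κ κ ℂ} {q : X → Matrix l l ℂ}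

theorem F_comp (hn : IsOE (IR 3) (𝓡 4) n) (hp : (⟨p, 0⟩ : Ln (EE 4) X κ).On (𝓡 4) univ) (z : Y × ℝ) :
    (⟨fun z => p (n z), 0⟩ : Ln _ _ κ).F (IR 3) z = pm (IR 3) (𝓡 4) n ((⟨p, 0⟩ : Ln (EE 4) X κ).F (𝓡 4)) z := by
  rw [← hp.F_pull isOpen_univ isOpen_univ (.of_contMDiff hn.contMDiff (mapsTo_univ _ _)) trivial, Ln.pull,
    pm_zero]

theorem cls (hn : IsOE (IR 3) (𝓡 4) n) (hp : (⟨p, 0⟩ : Ln (EE 4) X κ).On (𝓡 4) univ)
    (hq : (⟨q, 0⟩ : Ln (EE 4) X l).On (𝓡 4) univ) {V : Set X} (hV : IsOpen V) {u v} (hu : Uni (𝓡 4) p q u V)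
    (hv : Uni (IR 3) (fun z => p (n z)) (fun z => q (n z)) v (Nk Y)) {θ : Y → Circle}
    (hθ : ContMDiff (𝓡 3) (𝓡 1) ∞ θ) {N : ℤ} (h : Clu n V u v θ N) : ∃ g φ, Ph n g (ang (𝓡 3) θ) φ ∧
      Ex (𝓡 4) univ ((⟨q, 0⟩ : Ln (EE 4) X l).F (𝓡 4) - ((⟨p, 0⟩ : Ln (EE 4) X κ).F (𝓡 4) + (N : ℝ) • φ)) := by
  let k : ℝ → ℝ := fun t => Real.smoothTransition (4 * t + 1 / 2)
  have hk : ContDiff ℝ ∞ k := Real.smoothTransition.contDiff.comp (by fun_prop)
  have ka : ∀ t ≤ -1 / 8, k t = 0 := fun t ht => Real.smoothTransition.zero_of_nonpos (by linarith)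
  have kb : ∀ t, 1 / 8 ≤ t → k t = 1 := fun t ht => Real.smoothTransition.one_of_one_le (by linarith)
  obtain ⟨L, -, -, -, -, -, -, -, h5, h6⟩ := clutch hn hθ hk (by norm_num) ka kb
  have z : support (deriv k) ⊆ Icc (-1 / 8) (1 / 8) := fun t ht => by_contra fun c => ht (by
    rcases not_and_or.1 c with c | c
    · rw [EventuallyEq.deriv_eq (f := fun _ => 0)
        (mem_of_superset (Iio_mem_nhds (not_le.1 c)) fun x hx => ka x (le_of_lt hx)), deriv_const]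
    · rw [EventuallyEq.deriv_eq (f := fun _ => 1)
        (mem_of_superset (Ioi_mem_nhds (not_le.1 c)) fun x hx => kb x (le_of_lt hx)), deriv_const])
  have cu : Cl (𝓡 3) 1 univ (ang (𝓡 3) θ) := cl_ang fun y _ => hθ y
  have oN : IsOpen (Nk Y) := isOpen_Ioo.preimage continuous_snd
  have o := (OE.of_oe hn).mono oN (subset_univ _)
  have m : Mp (IR 3) (𝓡 4) (Nk Y) univ n := o.mp
  have hk' : ContDiff ℝ ∞ fun t => N * (1 - k t) := by fun_prop
  have s1 := sm_fpu hk' cu.sm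
  obtain ⟨A, a1, -⟩ := o.exists_pf (I := 𝓡 4)
    (th (IR 3) v + (fun z : Y × ℝ => N * (1 - k z.2)) • pu (ang (𝓡 3) θ))
  have a2 := o.sm a1 (hv.sm_th.add (s1.mono (subset_univ _)))
  refine ⟨deriv k, L.F (𝓡 4), ⟨(contDiff_infty_iff_deriv.1 hk).2, (closure_minimal z isClosed_Icc).trans
    (Icc_subset_Ioo (by norm_num) (by norm_num)), ?_, h5,
    fun x hx => h6 x fun c => hx (image_subset_range _ _ c)⟩, Ex.mono (ex_glue hV o.isOpen_image hu.sm_th a2 ?_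
      (fun x hx => ?_) ?_) fun x _ => (em _).imp_right (h.1 x)⟩
  · rw [← intervalIntegral.integral_eq_integral_of_support_subset (a := -1) (b := 1 / 8)
      (z.trans (Icc_subset_Ioc_left (by norm_num))), intervalIntegral.integral_deriv_eq_sub
      (fun x _ => hk.differentiable ne0 x) ((hk.continuous_deriv (by simp)).intervalIntegrable _ _),
      kb _ le_rfl, ka _ (by norm_num), sub_zero]
  · rintro _ ⟨hx, y, hy, rfl⟩
    refine eq_of_pm (hn.loc y) ?_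
    have ev := ((hn.continuous.tendsto y).eventually (hV.mem_nhds hx)).and (oN.mem_nhds hy)
    rw [a1 y hy, pm_th (hu.sm _ hx) ((hn.contMDiff y).mdifferentiableAt ne0), Pi.add_apply, Pi.smul_apply']
    rcases h.2 y hy hx with c | c
    · have f : CSm (IR 3) (θ ∘ Prod.fst) y := (hθ _).comp y contMDiffAt_fst
      rw [th_congr (u' := fun z => (((θ ∘ Prod.fst) ^ N) z : ℂ) • v z) ((ev.and ((continuous_snd.tendsto y).eventually
        (Iio_mem_nhds c.1))).mono fun z a => ((h.2 z a.1.2 a.1.1).resolve_right fun b => by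
          linarith [b.1, show z.2 < _ from a.2]).2), th_ph (f.zpow N) (hv.sm y hy)
        ((hv.iso y hy).src.symm ▸ hp.tr _ trivial), ang_zpow f, ka _ c.1.le, sub_zero, mul_one,
        ← pm_ang (hθ _) mdifferentiableAt_fst, Sym24.pm_fst]
    · rw [th_congr (u' := v) ((ev.and ((continuous_snd.tendsto y).eventually
        (Ioi_mem_nhds c.1))).mono fun z a => ((h.2 z a.1.2 a.1.1).resolve_left fun b => by
          linarith [b.1, show _ < z.2 from a.2]).2), kb _ c.1.le, sub_self, mul_zero, zero_smul, add_zero]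
  · rw [d_th hV hu (hp.mono (subset_univ _)) hx, Pi.sub_apply, Pi.add_apply, Pi.smul_apply, h6 x, smul_zero,
      add_zero]
    rintro ⟨y, hy, rfl⟩
    rcases h.2 y ⟨by linarith [hy.2.1], by linarith [hy.2.2]⟩ hx with c | c <;> linarith [c.1, hy.2.1, hy.2.2]
  · rintro _ ⟨y, hy, rfl⟩
    refine eq_of_pm (hn.loc y) ?_
    rw [o.pm_dM a1 a2 hy, dM_add ne0 (hv.sm_th y hy) (s1 y trivial), d_fpu hk' cu.sm,
      d_th oN hv (on_comp hp m) hy, F_comp hn hp, F_comp hn hq, pm_sub, pm_add, pm_smul, Pi.sub_apply,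
      Pi.add_apply, Pi.smul_apply, h5, pu, pu, cu.cl _ trivial, deriv_const_mul_field, deriv_const_sub]
    simp only [map_zero]
    module

end cls

open Wd38 Rod53 M Tau19 in
/-- **the lines of a root word** -/
theorem entry {Γ : Nm} {C : Cx Γ} {w : Shp Γ} {hw : w.OK} {X : TP V4} (R : Rz C hw X)
    (h : ∀ j, w.s j = .rod Γ.cap) : ∃ (ψ : C.X0.M ≃ₘ^∞⟮C.X0.I, X.mf.I⟯ X.mf.M) (V : Set C.X0.M), IsOpen V ∧
      Orx52.Pos C.X0.I X.P.I ψ univ (-C.o0) R.O ∧ ∀ (Λ : NmL Γ) (K : LCx C Λ) (n : Wt) (lam : Type) [Fintype lam]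
        (W : WL K R n lam), (∀ j, n.nl j = Λ.x ∧ n.nr j = Λ.x) → ∃ u v,
          Uni C.X0.I K.S0.L.p (fun x => W.p (ψ x)) u V ∧ Uni ((𝓡 3).prod 𝓘(ℝ, ℝ)) (fun z => K.S0.L.p (C.S.n z))
            (fun z => W.p (ψ (C.S.n z))) v (Nk _) ∧ Clu C.S.n V u v K.θ (n.mL - n.mR) := by
  obtain ⟨k, e, e', ψ, l, l1, l2, l3, -, a2, a3, a4, a5⟩ := R.exists_entry fun j _ _ => h j
  have cτ := C.S.continuous_τ (T := 1 / 4) (by norm_num)
  let U : Bool → Set C.X0.M := fun b => cond b {x | C.S.τ (1 / 4) x < -1 / 8} {x | 1 / 8 < C.S.τ (1 / 4) x}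
  have oU : ∀ b, IsOpen (U b) := by
    rintro (_ | _)
    exacts [isOpen_lt continuous_const cτ, isOpen_lt cτ continuous_const]
  refine ⟨ψ, _, isOpen_iUnion oU, a5, fun Λ K n lam _ W hn => ?_⟩
  have c := sa_fd (hw.pr _ le_rfl hw.lt.le).2
  rw [hw.lr] at c
  have eb : w.bz w.l w.r = fun _ => Γ.cap.2 := (k.bz_eq hw).trans (funext fun j => by
    unfold Shp.bw; split_ifs <;> rw [h] <;> rfl)
  have ev : ∀ t, w.v w.l w.r t = sa (fd Γ.cap.2) ∧ wz w n w.l w.r t = Λ.x := fun t => by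
    rw [Shp.v, wz, eb, c, Rod53.wd, wm, if_neg fun a => a.2 (PM.refl _), if_neg fun a => a.2 (PM.refl _), Wt.bn]
    exact ⟨rfl, by split_ifs; exacts [(hn _).2, (hn _).1]⟩
  obtain ⟨m, hm⟩ := ((K.sf _ Λ.x).flc e).mark (op_tm C w w.l w.r) (W.tl k) (isOpen_II w.l w.r)
    (interior_maximal (fun t _ => .inl (ev t).1) (isOpen_II _ _))
    (fun t _ => oa_of (.of_forall fun s => .inl (ev s))) subset_rfl
  have k1 := ((hm.time (σ := l) (B := Ioo (-(1 / 4)) (1 / 4)) ⟨fun t _ => l.contMDiff t, fun t ht =>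
    (mem_Ioo_of l1.strictMono ((l2 _ (by norm_num)).trans (by ring)) ((l3 _ (by norm_num)).trans (by ring)) t).2
      ht⟩).congr_p (fun z hz => congrArg W.p (a4 z.1 z.2 hz)) fun _ _ => rfl).congr
    (s₁ := fun z => W.g (ψ (C.S.n z))) fun z hz _ => ⟨(congrArg W.g (a4 z.1 z.2 hz)).trans
      (sg_one (LCx.nu_one (.inl ⟨_, hw.sl⟩))).symm, rfl⟩
  have oN : IsOpen (Nk (mF C.kd Γ.cap).M) := isOpen_Ioo.preimage continuous_snd
  have sθ : ∀ (j : ℤ) z, CSm ((𝓡 3).prod 𝓘(ℝ, ℝ)) (fun z : _ × ℝ => K.θ z.1 ^ j) z := fun j z =>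
    cm_zpow ((K.hθ _).comp z contMDiffAt_fst) j
  have key : ∀ (j : ℤ) (b : Bool) u, Mt C.X0.I K.S0.D K.S0.L.p K.S0.s (fun x => W.p (ψ x))
      (fun x => (K.μ j x : ℂ) • W.g (ψ x)) u (U b) → ∀ z ∈ Nk _, C.S.n z ∈ U b →
      u (C.S.n z) = ((K.θ z.1 ^ j : Circle) : ℂ) • ((m (z.1, l z.2))ᴴ * K.m0 z) := fun j b u hu z z1 z2 => by
    have o := oN.inter ((oU b).preimage C.S.oe.continuous)
    have := (hu.comp (V := Nk _ ∩ C.S.n ⁻¹' U b) ⟨fun y _ => C.S.oe.contMDiff y, fun _ a => a.2⟩).toUni.trans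
      (k1.toUni.mono inter_subset_left) |>.ext_sec (D := C.S.n ⁻¹' K.S0.D ∩ Prod.fst ⁻¹' (K.S Γ.cap Λ.x).D) o
      (fun y _ => (Dense.inter_of_isOpen_right (fun y => cl_of_ld (C.S.oe.loc y) (K.ok0.dn _))
        (K.sf _ _).ok.dn' (K.sf _ _).ok.op') y) ((K.hm0.mono inter_subset_left).phase fun y _ => sθ j y)
      (fun y a b => ⟨_, K.ok0.fr.iso _ b.1, by
        rw [Matrix.mul_assoc, hu.eq _ a.2 b.1, Matrix.mul_smul, k1.eq y a.1 b.2, Matrix.smul_mul,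
          ph_spec (K.ok0.fr.iso _ b.1) ((K.sf _ _).ok.fr.iso _ b.2) (K.hm0.iso y a.1), csmul_smul, LCx.μ,
          C.S.oe.inj.extend_apply]⟩) ⟨z1, z2⟩
    beta_reduce at this
    rw [← Matrix.mul_smul, ← this, ← Matrix.mul_assoc, (k1.iso z z1).src, (hu.iso _ z2).left]
  have mL : ∀ x ∈ U true, C.S.τ (1 / 4) x < -1 / 8 := fun _ => id
  have mR : ∀ x ∈ U false, 1 / 8 < C.S.τ (1 / 4) x := fun _ => id
  obtain ⟨uL, hL⟩ := W.cL
  obtain ⟨uR, hR⟩ := W.cR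
  have hL' := ((hL.mono (O' := U true) (fun x a => show C.S.τ (1 / 4) x + _ < _ by linarith [mL x a])
    inter_subset_right).congr_p (fun _ _ => rfl) fun x a => congrArg W.p (a2 x a)).congr
    (s₁' := fun x => (K.μ n.mL x : ℂ) • W.g (ψ x)) fun x a _ => ⟨rfl, by rw [a2 x a]⟩
  have hR' := ((hR.mono (O' := U false) (fun x a => show _ < C.S.τ (1 / 4) x + _ by linarith [mR x a])
    inter_subset_right).congr_p (fun _ _ => rfl) fun x a => congrArg W.p (a3 x a)).congr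
    (s₁' := fun x => (K.μ n.mR x : ℂ) • W.g (ψ x)) fun x a _ => ⟨rfl, by rw [a3 x a]⟩
  obtain ⟨u, u1, u2⟩ := exists_uni_glue oU (a := fun b => cond b uL uR)
    (by rintro (_ | _); exacts [hR'.toUni, hL'.toUni]) (by
      rintro (_ | _) (_ | _) x a b
      exacts [rfl, by linarith [mR x a, mL x b], by linarith [mL x a, mR x b], rfl])
  refine ⟨u, _, u1, (K.hm0.trans k1.toUni.symm).phase fun z _ => sθ n.mR z, fun x hx => ?_, fun z z1 z2 => ?_⟩
  · have t : C.S.τ (1 / 4) x ∈ Ioo (-(1 / 4) : ℝ) (1 / 4) :=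
      ⟨by linarith [not_lt.1 fun a : C.S.τ (1 / 4) x < -1 / 8 => hx (mem_iUnion.2 ⟨true, a⟩)],
        by linarith [not_lt.1 fun a : 1 / 8 < C.S.τ (1 / 4) x => hx (mem_iUnion.2 ⟨false, a⟩)]⟩
    obtain ⟨z, z1, z2⟩ := (C.S.k (T := 1 / 4) (by norm_num)).surj (y := x) t
    exact ⟨z, (congrArg (· ∈ _) z1).mpr t, z2⟩
  · have t := C.S.τ_n' (Ioo_subset_Icc_self z1)
    obtain ⟨_ | _, a⟩ := mem_iUnion.1 z2
    · exact .inr ⟨t ▸ mR _ a, (u2 false a).trans (key _ _ _ hR' z z1 a)⟩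
    · exact .inl ⟨t ▸ mL _ a, (u2 true a).trans ((key _ _ _ hL' z z1 a).trans (by
        rw [csmul_smul, ← _root_.zpow_add, sub_add_cancel]))⟩

end Crest.Agent.X212.Brn93
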