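import Crest.Agent.X212.Lat93.Typ
import Crest.Agent.X212.Line51.Nek

/-!
# X212 / Brn93, part Typ (helper93): the type of a framed line on a filling

* `sf_type` : a line of order `i` along the core has the type `a i`;  `typ_mul`.
-/

set_option autoImplicit false
set_option linter.unusedSectionVars false

open Set Filter Topology Function Matrix
open scoped ContDiff Manifold
open Crest.GeometryTopology.DehnSurgery
open Crest.Agent.X212.Line51 Crest.Agent.X212.Pj41 Crest.Agent.X212.Lat93 Crest.Agent.X212.Pic56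
  Crest.Agent.X212.Ext52 Crest.Agent.X212.Glue52
open Crest.Agent.X212.Rod53 hiding Uni X

noncomputable section

namespace Crest.Agent.X212.Brn93

variable {κ : Type} [Fintype κ] [DecidableEq κ]

theorem isFrame {X : Type*} [TopologicalSpace X] {p : X → Matrix κ κ ℂ} {s : X → Matrix κ Unit ℂ}
    (c : Continuous s) (h : ∀ x, PIso (s x) 1 (p x)) : IsFrame (fun x => clm (p x)) (fun x j => s x j ()) univ :=
  ⟨(continuous_pi fun j => c.matrix_elem j ()).continuousOn,
    fun x _ => funext fun j => congrFun (congrFun (h x).left j) (), fun x _ e => by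
      have := (h x).src
      rw [show s x = 0 from Matrix.ext fun j _ => congrFun e j, Matrix.mul_zero] at this
      exact zero_ne_one this⟩

theorem sf_type {k : KD} {σ : FillingData} {S : Sec _ (Fill k.toTube σ) κ} {i : ℤ}
    (h : SF (ofFill k.toTube σ) (uni_s σ) i S) : FType k.toTube σ S.L.p (σ.a * i) := by
  let F := ofFill k.toTube σ
  have m : ∀ z : Circle × ℂ, z.2 ≠ 0 → F.it z ∈ range F.ie := fun z hz =>
    ⟨⟨_, (F.hW _).2 ((ofTube _).τ_mem.2 (gl_ne.2 hz))⟩, (F.eq _ _).2 ⟨hz, rfl⟩⟩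
  have ev := fun z => Eventually.of_forall (f := 𝓝 z) F.oeT.contMDiff
  obtain ⟨u, hu⟩ := exists_mt (I := Rod53.IT) (D := Cz) (q := fun z => S.L.p (F.it z)) (s' := fun z => S.s (F.it z))
    isOpen_univ (fun z _ => dense_Cz z) fun z _ => ⟨fun z => dir z.2 ^ i, Og.const Prj.one.refl, by
      by_cases hz : z.2 = 0
      · refine ((h.pl.ax (F.it z) trivial (fun o => ((F.eq _ _).1 ((pre_f0 F _).le o).choose_spec).1 hz) _
          (rep_const (dual_left (uni_s σ) i 0) _)).comp (ev z)).congr EventuallyEq.rfl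
          (.of_forall fun y hy => ⟨(pre_f0 F _).ge (m y hy), rfl, ?_⟩)
        rw [f0, F.cyf_it, chi_rod (w := (y, 0)) _ hy, dual_left (uni_s σ), dual_right (uni_s σ), zpow_zero, mul_one]
      · exact ((Og.of_fr h.ok.opn h.ok.fr (h.D.ge (m z hz)) (D := univ)).comp (ev z)).change
          (k := fun z => (dir z.2 ^ i)⁻¹) (eventually_of_mem (Cz.isOpen.mem_nhds hz) fun y hy =>
            ⟨CSm.inv (cm_zpow (cm_dir contMDiffAt_snd hy) i), fun _ => (inv_mul_cancel _).symm⟩) |>.congr
          EventuallyEq.rfl (.of_forall fun _ _ => ⟨trivial, rfl, rfl⟩)⟩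
  have e := fun x => h.D.ge (mem_range_self (f := F.ie) x)
  refine FType.of_frames (isFrame (continuous_iff_continuousAt.2 fun x =>
    (h.ok.fr.sm _ (e x)).continuousAt.comp F.oeE.continuous.continuousAt) fun x => h.ok.fr.iso _ (e x))
    (isFrame (continuous_iff_continuousAt.2 fun z => (hu.sm z trivial).continuousAt) fun z => hu.iso z trivial)
    (d := -σ.b * i) (φ := fun z => ((z.1 ^ σ.a * z.2 ^ (-σ.b) : Circle) : ℂ) ^ i)
    ((HasLog.const one_ne_zero _).congr fun z _ => ?_) fun z => funext fun j => ?_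
  · simp only [Circle.coe_mul, Circle.coe_zpow, _root_.mul_zpow, ← _root_.zpow_mul]
    exact mul_inv_cancel₀ (by simp [zpow_ne_zero])
  · have := congrFun (congrFun (hu.eq _ trivial ((tw σ).symm (cz z)).2) j) ()
    refine (congrArg (fun y => S.s y j ()) (k.ie_τE' σ _)).trans (this.symm.trans ?_)
    have d := dir_mul one_pos (z.1 ^ σ.a * z.2 ^ (-σ.b))
    rw [Complex.ofReal_one, one_mul] at d
    simp only [Matrix.one_mul, Matrix.mul_apply, sc, tw_symm_cz, bV, bd, d]
    simp [mul_comm]

theorem typ_mul {E : Type*} [NormedAddCommGroup E] [NormedSpace ℝ E] [FiniteDimensional ℝ E] {H : Type*}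
    [TopologicalSpace H] {I : ModelWithCorners ℝ E H} {Y : Type*} [TopologicalSpace Y] [ChartedSpace H Y]
    {T : Ty Y} (h : Typ I T) {ε : ℤ} (e : ε * ε = 1) : Typ I fun κ _ p j => T κ p (ε * j) :=
  ⟨fun a => let ⟨j, t⟩ := h.ex a; ⟨ε * j, by rwa [← mul_assoc, e, one_mul]⟩, fun a b => mul_add ε _ _ ▸ h.tens a b,
    fun a b => mul_neg ε _ ▸ h.dual a b, h.uni, h.iso, (mul_zero ε).symm ▸ h.one⟩

end Crest.Agent.X212.Brn93
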